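import Vale.Agent.P154.D3.K1.Charts

set_option maxRecDepth 100000

namespace Vale.Agent.P154.D3.K1

open Cert InT OutT

/-- Certificate tree. -/
def tr00_r100 : OutT :=
(A (B (A (O (c (c (c (c l l) (c l l)) (c (c l l) (d l (c l l)))) (c (c (d l (d l l)) (d (d (d k (d k (c k k))) (c l (d k (d k l)))) (d (d (c l l) (c l l)) (c l (c l l))))) (d (c k k) (c (d (c (d k (d (c k k) l)) (d k (d k (c k k)))) (c (d l l) (d (c l (c k k)) l))) (d (c k k) (c (d (d (c k k) (c l k)) (c l l)) (d (d k (c k k)) (c l l))))))))) (B (O (c (c (c l l) (c l (c l l))) (c (c (d l (c l l)) (d (c (d k (c l l)) (d k (d k (c k k)))) (d (d (c l (d (c k k) l)) l) (c l l)))) (d (c k k) (c (d (c (d k (d (c k k) l)) (d k (d k (c k k)))) (c (d l l) (d (d (c k k) l) l))) (d (c k k) (c (d (d (c k k) (c l k)) (c l l)) (d (d k (c k k)) (c (c l l) (d (c k k) l)))))))))) (A (O (c (c (c l l) (c l (c l l))) (c (d (c l (d (d k (c k k)) (d (c l k) (c l l)))) (c (c l l) (d (c l l) (c l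 l)))) (d (c k k) (c (d (d (c k k) (c l (d k l))) (d (c l l) l)) (d (d k (c k k)) (d (c l (c k k)) (c l l)))))))) (O (c (c (c l l) (c l (c l l))) (c (d (c l (c (c l l) (d k (d k (d k l))))) (c (c l l) (d (d (c l l) l) (c l l)))) (d (c k k) (c (d (d (c k k) (c l (d k l))) (d (c l l) (c l l))) (d (d k (c k k)) (d (c (c l k) (d k l)) (c l l))))))))))) (A (B (O (c (c (c l (c l l)) (c (c l l) (c l l))) (c (c (d l (c l l)) (d (d (d k l) (d (c l k) (c l l))) (d (d l l) (c l l)))) (d (c k k) (c (d (c (d k (c l k)) (d k (d k (c k k)))) (c (c l l) (d (c l l) l))) (d (c k k) (c (d (d (c k k) l) l) (d (d k (c k k)) (c l l))))))))) (O (c (c (c (c l l) (c l l)) (c l (c l l))) (c (c (d l (c l l)) (d (d (c k k) (d l (c l l))) (d (d l l) (c l l)))) (d (c k k) (c (d (c (d k (c l k)) (d k (d k (c k k)))) (c (c l l) (d (c l l) l))) (d (c k k) (c (d (d (c k k) (c l k)) (c l l)) (d (d k (c k k)) (c l l)))))))))) (B (A (O (c (c (c l l) (c l (c l l))) (c (c (d l (c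 l l)) (d (d (d k l) (d l l)) (d (c l l) (c l l)))) (d (c k k) (c (d (d (c k k) (c l (d k l))) (d (c l l) (c l l))) (d (d k (c k k)) (d (c l (c k k)) (c l l)))))))) (O (c (c (c l l) (c l (c l l))) (c (c (d l (c l l)) (d (d (d k (c k k)) (c l (d k (d k l)))) (d (d (c l l) l) (c l l)))) (d (c k k) (c (d (d (c k k) (c (c l k) (d k l))) (d (c l l) (c l l))) (d (d k (c k k)) (d (c (c l k) (d k l)) (c l l))))))))) (A (O (c (c (c (c l l) (c l l)) (c l l)) (c (c (d l l) (d (d (c k k) (c l l)) (d (c l l) (c l l)))) (d (c k k) (c (d (d (c k k) (c l (d k l))) (c l (c l l))) (d (d k (c k k)) (c (d (c l k) l) (d (c k k) l)))))))) (O (c (c (c (c l l) l) (c l l)) (c (c (d l (c l l)) (d (d (d k (d k (c k k))) (c l (d k (d k l)))) (d (d (c l l) l) (c l l)))) (d (c k k) (c (d (d (c k k) (c (c l k) (d k l))) (c (c l l) (d l l))) (d (d k (c k k)) (c (d (d l l) l) (d (d k l) l)))))))))))) (B (A s s) (A (B (A (O (c (c (c l l) (c l (c l l))) (c (d (c l (c (d k (c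 l l)) (d k (c k k)))) (c (c l l) (d (d (c l (d (c k k) l)) l) (c l l)))) (d (c k k) (c (d (d (c k k) (c (d (c k k) l) (d k (c k k)))) (d (c l (c l l)) (c l l))) (d (d k (c k k)) (c (d (d (c k k) l) l) (d (d k (c k k)) l)))))))) s) (A (O (c (c (c (c l l) l) (c l (c l l))) (c (c (d l (c l l)) (d (d (c k k) (c l (c k k))) (d (d (c l (d (c k k) l)) l) (c l l)))) (d (c k k) (c (d (c (d k (d (c k k) l)) (d k (d k (d k l)))) (c (d l l) (d (c l l) l))) (d (d k (c k k)) (c (d (d (c k k) l) l) (d (d k (c k k)) (c l l))))))))) (O (c (c (c (c l l) (c l l)) (c l (c l l))) (c (c (d (d l l) (d l l)) (d (d (c k k) (c (d (c l k) (d (c l k) l)) (c k k))) (d (c (d l l) (d (c (d k l) k) (d (c l l) l))) (d (c l l) (c l l))))) (d (c k k) (c (d (c (d k (d (c k k) (c l k))) (d k (d k (c k k)))) (c (d (c l l) l) (d (d (c k k) l) l))) (d (c k k) (c (d (d (c k k) (c l k)) (c l l)) (d (d k (c k k)) (c l (c l l)))))))))))) (B s (A s s)))))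

theorem s00_r100 : Sound P00 32768 8192 0 16384 :=
  chkOut2_sound P00 KK tr00_r100 32768 8192 0 16384 (by decide +kernel)

end Vale.Agent.P154.D3.K1
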